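import Vale.Agent.P141.H505.SkelStack1
import Vale.Agent.P141.H103.CapA
import Vale.Agent.P141.H543.WtTF

/-!
# P141, line (A), F13: weight, slot and numbers of the flow part, letters of SkelStack1 v1.2

Port of `H543.Num1` (543) to v1.2: static `V`, one field `cross`.

`R x k m` symmetric, on the halves of the cell `m` of scale `k + 1` : `R ± D`.
* `wgt_TF`, `slot_TF` : `Th = β + R²`, `M = R D + D R`, `Nn = D D`, `Nm = 0`; factor `(R ; √β)`,
  slot matrix `R = (R ; √β)ᵀ (1 ; 0)`;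
* `eT_TF`, `eM_TF`, `trW3_TF` : local energy, local variation, trace of the Gram matrix;
* `num_TF` : all fields of `Num` from plain sums of `|c|²`, `|R c|²`, `|D c|²`, `|D R c|²`.
-/

namespace Vale.Agent.P141.H235.S1

open Finset Matrix Vale.Agent.P141.PL Vale.Agent.P141.H103
open Vale.Agent.P141.H258 (wt wt_symm wt_psd)
open Vale.Agent.P141.H389 Vale.Agent.P141.H505.Sk1 Vale.Agent.P141.H543
open Vale.Agent.P075

noncomputable section

open scoped Classical

variable {κ : Type} [Fintype κ] [DecidableEq κ]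

/-- a moving family of matrices, exact on the halves -/
structure Mv (N : ℕ) (R D : ℤ → ℕ → ℤ → Matrix κ κ ℝ) : Prop where
  symR : ∀ x k m, (R x k m)ᵀ = R x k m
  symD : ∀ x k m, (D x k m)ᵀ = D x k m
  left : ∀ x k m, k < N → R x k (2 * m) = R x (k + 1) m + D x (k + 1) m
  right : ∀ x k m, k < N → R x k (2 * m + 1) = R x (k + 1) m - D x (k + 1) m

/-- the weight -/
def ThF (β : ℝ) (R : ℤ → ℕ → ℤ → Matrix κ κ ℝ) (x : ℤ) (k : ℕ) (m : ℤ) : Matrix κ κ ℝ :=
  wt β (R x k m)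

/-- the symmetric move of the weight -/
def MF (R D : ℤ → ℕ → ℤ → Matrix κ κ ℝ) (x : ℤ) (k : ℕ) (m : ℤ) : Matrix κ κ ℝ :=
  R x k m * D x k m + D x k m * R x k m

/-- the drift of the weight -/
def NF (D : ℤ → ℕ → ℤ → Matrix κ κ ℝ) (x : ℤ) (k : ℕ) (m : ℤ) : Matrix κ κ ℝ :=
  D x k m * D x k m

/-- **The weight field of the flow part.** -/
theorem wgt_TF {N : ℕ} {β : ℝ} (hβ : 0 < β) {R D : ℤ → ℕ → ℤ → Matrix κ κ ℝ} (h : Mv N R D) :
    Wgt N β (ThF β R) (NF D) (MF R D) (fun _ _ _ => 0) where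
  pos := hβ
  ge x k m := by
    have e : ThF β R x k m - β • (1 : Matrix κ κ ℝ) = R x k m * R x k m := by
      unfold ThF wt
      abel
    rw [e]
    exact sq_psd (h.symR x k m)
  wf :=
    { pd := fun x k m => wt_posDef hβ (h.symR x k m)
      sN := fun x k m => by
        unfold NF
        rw [transpose_mul, h.symD]
      sM := fun x k m => by
        unfold MF
        rw [transpose_add, transpose_mul, transpose_mul, h.symR, h.symD, add_comm]
      pNm := fun x k m => PosSemidef.zero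
      pN := fun x k m => by
        rw [add_zero]
        exact sq_psd (h.symD x k m)
      left := fun x k m hk => by
        unfold ThF NF MF
        rw [h.left x k m hk, wt_left]
      right := fun x k m hk => by
        unfold ThF NF MF
        rw [h.right x k m hk, wt_right] }

/-- the factor of the weight -/
def LF (β : ℝ) (R : ℤ → ℕ → ℤ → Matrix κ κ ℝ) (x : ℤ) (k : ℕ) (m : ℤ) : Matrix (κ ⊕ κ) κ ℝ :=
  fromRows (R x k m) (√β • (1 : Matrix κ κ ℝ))

/-- the partner of the slot matrix -/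
def VF (κ : Type) [Fintype κ] [DecidableEq κ] : Matrix (κ ⊕ κ) κ ℝ :=
  fromRows (1 : Matrix κ κ ℝ) 0

/-- **The slot of the flow part.** -/
theorem slot_TF {N : ℕ} {β : ℝ} (hβ : 0 < β) {R D : ℤ → ℕ → ℤ → Matrix κ κ ℝ} (h : Mv N R D) :
    Slot N (ThF β R) (fun _ _ _ => 0) (LF β R) (VF κ) R (fun _ _ _ => 0) D where
  LtL x k m := by
    unfold LF ThF wt
    have e1 : (√β • (1 : Matrix κ κ ℝ))ᵀ * (√β • (1 : Matrix κ κ ℝ)) = β • (1 : Matrix κ κ ℝ) := by
      rw [transpose_smul, transpose_one, Matrix.smul_mul, Matrix.mul_smul, Matrix.one_mul,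
        smul_smul, Real.mul_self_sqrt hβ.le]
    rw [transpose_fromRows, fromCols_mul_fromRows, h.symR, e1, add_comm]
  LtV x k m := by
    unfold LF VF
    rw [transpose_fromRows, fromCols_mul_fromRows, h.symR, Matrix.mul_one, Matrix.mul_zero,
      add_zero]
  V1 := by
    have e : (2 : ℝ) • (1 : Matrix κ κ ℝ) - (VF κ)ᵀ * VF κ = 1 := by
      unfold VF
      rw [transpose_fromRows, fromCols_mul_fromRows, transpose_one, Matrix.mul_one,
        Matrix.mul_zero, add_zero, two_smul, add_sub_cancel_right]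
    rw [e]
    exact PosSemidef.one
  dft x k m p q := by
    simp only [zero_mulVec, dotProduct_zero]
    norm_num
  left x k m hk := by
    rw [h.left x k m hk, add_zero]
  right x k m hk := by
    rw [h.right x k m hk, add_zero]

/-! ### Local numbers -/

/-- square of a vector -/
def sq (v : κ → ℝ) : ℝ := v ⬝ᵥ v

omit [DecidableEq κ] in
theorem sq_nonneg' (v : κ → ℝ) : 0 ≤ sq v := by
  have := dotProduct_self_star_nonneg v
  simpa [sq] using this

/-- the two numbers of a move -/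
def qD (c : ℤ → ℤ → κ → ℝ) (D : ℤ → ℕ → ℤ → Matrix κ κ ℝ) (k : ℕ) (x z : ℤ) : ℝ :=
  sq (D x (k + 1) (ix (k + 1) z) *ᵥ c x z)

/-- the second number -/
def qDR (c : ℤ → ℤ → κ → ℝ) (R D : ℤ → ℕ → ℤ → Matrix κ κ ℝ) (k : ℕ) (x z : ℤ) : ℝ :=
  sq (D x (k + 1) (ix (k + 1) z) *ᵥ (R x (k + 1) (ix (k + 1) z) *ᵥ c x z))

/-- energy of the moved slot -/
def eR (c : ℤ → ℤ → κ → ℝ) (R : ℤ → ℕ → ℤ → Matrix κ κ ℝ) (k : ℕ) (x z : ℤ) : ℝ :=
  sq (R x k (ix k z) *ᵥ c x z)

theorem eT_TF {N : ℕ} (c : ℤ → ℤ → κ → ℝ) {β : ℝ} {R D : ℤ → ℕ → ℤ → Matrix κ κ ℝ}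
    (h : Mv N R D) (k : ℕ) (x z : ℤ) :
    eT c (ThF β R) k x z = β * sq (c x z) + eR c R k x z :=
  wt_form β (h.symR x k (ix k z)) (c x z)

/-- the cell of scale `k` is one of the two halves -/
theorem ix_half (k : ℕ) (z : ℤ) : ix k z = 2 * ix (k + 1) z ∨ ix k z = 2 * ix (k + 1) z + 1 := by
  have h : ix (k + 1) z = ix k z / 2 := by
    unfold ix
    rw [pow_succ, Int.ediv_ediv_of_nonneg (by positivity)]
  rw [h]
  omega

/-- **Local variation.** -/
theorem eM_TF {N : ℕ} (c : ℤ → ℤ → κ → ℝ) {β : ℝ} (hβ : 0 < β)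
    {R D : ℤ → ℕ → ℤ → Matrix κ κ ℝ} (h : Mv N R D) {k : ℕ} (hk : k < N) (x z : ℤ) :
    eM c (ThF β R) (MF R D) k x z ≤ 4 * qD c D k x z + 4 * β⁻¹ * qDR c R D k x z := by
  have p := inv_form_move hβ (h.symR x (k + 1) (ix (k + 1) z)) (R x (k + 1) (ix (k + 1) z))
    (D x (k + 1) (ix (k + 1) z)) (c x z)
  have hc : (dTh (ThF β R) k x z *ᵥ c x z) ⬝ᵥ ((ThF β R x k (ix k z))⁻¹ *ᵥ
      (dTh (ThF β R) k x z *ᵥ c x z)) ≤
      2 * qD c D k x z + 2 * β⁻¹ * qDR c R D k x z := by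
    have w := (wgt_TF hβ h).wf
    rcases ix_half k z with e | e
    · have e1 : dTh (ThF β R) k x z = R x k (ix k z) * D x (k + 1) (ix (k + 1) z) +
          D x (k + 1) (ix (k + 1) z) * R x (k + 1) (ix (k + 1) z) := by
        unfold dTh
        rw [e, w.left x k _ hk, h.left x k _ hk, ← mv_left]
        unfold MF NF
        abel
      rw [e1]
      exact inv_form_move hβ (h.symR x k (ix k z)) (R x (k + 1) (ix (k + 1) z))
        (D x (k + 1) (ix (k + 1) z)) (c x z)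
    · have e1 : dTh (ThF β R) k x z = -(R x k (ix k z) * D x (k + 1) (ix (k + 1) z) +
          D x (k + 1) (ix (k + 1) z) * R x (k + 1) (ix (k + 1) z)) := by
        unfold dTh
        rw [e, w.right x k _ hk, h.right x k _ hk, ← mv_right]
        unfold MF NF
        abel
      rw [e1, neg_mulVec, mulVec_neg, neg_dotProduct_neg]
      exact inv_form_move hβ (h.symR x k (ix k z)) (R x (k + 1) (ix (k + 1) z))
        (D x (k + 1) (ix (k + 1) z)) (c x z)
  unfold eM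
  refine (add_le_add p hc).trans (le_of_eq ?_)
  unfold qD qDR sq
  ring

/-! ### The trace of the Gram matrix -/

/-- normalised mass of a slot on the rectangle -/
def mW (f : ℤ → ℤ → ℝ) (a k : ℕ) (n m : ℤ) : ℝ :=
  ((2 : ℝ) ^ a * 2 ^ k)⁻¹ * ∑ x ∈ iv a n, ∑ z ∈ iv k m, f x z

omit [DecidableEq κ] in
theorem trW3 (c : ℤ → ℤ → κ → ℝ) (Th : ℤ → ℕ → ℤ → Matrix κ κ ℝ) (k a : ℕ) (n m : ℤ) :
    (W3 c Th k a n m).trace = mW (eT c Th k) a k n m := by
  unfold W3 mW Matrix.trace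
  simp only [diag_apply, QW]
  rw [← mul_sum, sum_comm]
  congr 1
  refine sum_congr rfl fun x _ => ?_
  rw [PL.H588.sum_iv]
  refine sum_congr rfl fun i _ => ?_
  unfold eT
  have e : ix k (2 ^ k * m + val k i) = m := by
    rw [← mem_iv]
    exact H103.mem_iv_val k m i
  rw [e]

theorem mW_lin (β : ℝ) (f g : ℤ → ℤ → ℝ) (a k : ℕ) (n m : ℤ) :
    mW (fun x z => β * f x z + g x z) a k n m = β * mW f a k n m + mW g a k n m := by
  unfold mW
  simp only [sum_add_distrib, ← mul_sum]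
  ring

theorem GW_lin (N : ℕ) (R S T : ℤ) (k : ℕ) (c : ℤ) (β : ℝ) (f g : ℤ → ℤ → ℤ → ℝ) :
    GW N R S T k c (fun n n' m => β * f n n' m + g n n' m) =
      β * GW N R S T k c f + GW N R S T k c g := by
  unfold GW
  have e : ∀ m n : ℤ, (if c - m - n ∈ iv (N - k) T then
      β * f n (c - m - n) m + g n (c - m - n) m else 0) =
      β * (if c - m - n ∈ iv (N - k) T then f n (c - m - n) m else 0) +
        (if c - m - n ∈ iv (N - k) T then g n (c - m - n) m else 0) := by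
    intro m n
    split_ifs
    · rfl
    · ring
  simp only [e, sum_add_distrib, ← mul_sum]
  ring

/-- trace on the marked nodes -/
theorem GW_mark {N : ℕ} {β : ℝ} {R D : ℤ → ℕ → ℤ → Matrix κ κ ℝ} (h : Mv N R D)
    (c : ℤ → ℤ → κ → ℝ) (r s t : ℤ) (k : ℕ) (p : ℤ) (P : ℤ → ℤ → ℤ → Prop)
    [∀ n n' m, Decidable (P n n' m)] (u v : ℤ → ℤ → ℤ → ℤ) :
    GW N r s t k p (fun n n' m => if P n n' m then
      (W3 c (ThF β R) k k (u n n' m) (v n n' m)).trace else 0) =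
    β * GW N r s t k p (fun n n' m => if P n n' m then
      mW (fun x z => sq (c x z)) k k (u n n' m) (v n n' m) else 0) +
    GW N r s t k p (fun n n' m => if P n n' m then
      mW (eR c R k) k k (u n n' m) (v n n' m) else 0) := by
  rw [← GW_lin]
  congr 1
  funext n n' m
  split_ifs
  · rw [trW3, ← mW_lin]
    congr 1
    funext x z
    exact eT_TF c h k x z
  · ring

/-- **The numbers of the flow part.** -/
theorem num_TF {k₀ N : ℕ} {r1 r2 r3 : ℤ} {pl : ℕ → ℤ} {A : ℕ → ℤ → ℤ → ℝ}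
    {b c : ℕ → ℤ → ℤ → κ → ℝ} {β E cC : ℝ} (hβ : 0 < β) {R D : ℤ → ℕ → ℤ → Matrix κ κ ℝ}
    (h : Mv N R D) (hE : 0 ≤ E)
    (h_en : ∀ k, k₀ ≤ k → k ≤ N → ∀ j, k ≤ j → j ≤ k + 1 →
      β * ∑ x ∈ iv N r1, ∑ z ∈ iv N r3, sq (c j x z) +
        ∑ x ∈ iv N r1, ∑ z ∈ iv N r3, eR (c j) R k x z ≤ E)
    (h_var : 4 * ∑ k ∈ Ico k₀ N, ∑ x ∈ iv N r1, ∑ z ∈ iv N r3, qD (c (k + 1)) D k x z +
      4 * β⁻¹ * ∑ k ∈ Ico k₀ N, ∑ x ∈ iv N r1, ∑ z ∈ iv N r3, qDR (c (k + 1)) R D k x z ≤ E)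
    (h_born : β * ∑ k ∈ Ico k₀ N, ∑ x ∈ iv N r1, ∑ z ∈ iv N r3,
        (if Ch c k (ix k x) (ix k z) then sq (c (k + 1) x z) else 0) +
      ∑ k ∈ Ico k₀ N, ∑ x ∈ iv N r1, ∑ z ∈ iv N r3,
        (if Ch c k (ix k x) (ix k z) then eR (c (k + 1)) R k x z else 0) ≤ E)
    (h_cross : β * ∑ k ∈ Ico k₀ N, GW N r2 r3 r1 k (pl k) (fun n2 n1 m =>
        if Ch A k n2 m ∨ Ch b k n1 n2 ∨ Ch c k n1 m then
          mW (fun x z => sq (c (k + 1) x z)) k k n1 m else 0) +
      ∑ k ∈ Ico k₀ N, GW N r2 r3 r1 k (pl k) (fun n2 n1 m =>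
        if Ch A k n2 m ∨ Ch b k n1 n2 ∨ Ch c k n1 m then
          mW (eR (c (k + 1)) R k) k k n1 m else 0) ≤ E)
    (h_cap : ∀ k a n m, k₀ ≤ k → k₀ ≤ a → k ≤ N → a ≤ N → ∀ j, min k a ≤ j → j ≤ min k a + 1 →
      n ∈ iv (N - a) r1 → m ∈ iv (N - k) r3 →
      (cC ^ 2 • (1 : Matrix (Ix k) (Ix k) ℝ) - W3 (c j) (ThF β R) k a n m).PosSemidef) :
    Num k₀ N r1 r2 r3 pl A b c (ThF β R) (MF R D) (fun _ _ _ => 0) E cC where
  en k h0 hk j hj hj' := by
    refine le_trans (le_of_eq ?_) (h_en k h0 hk j hj hj')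
    simp only [eT_TF (c j) h, sum_add_distrib, ← mul_sum]
  var := by
    refine le_trans ?_ h_var
    rw [mul_sum, mul_sum, ← sum_add_distrib]
    refine sum_le_sum fun k hk => ?_
    rw [mul_sum, mul_sum, ← sum_add_distrib]
    refine sum_le_sum fun x _ => ?_
    rw [mul_sum, mul_sum, ← sum_add_distrib]
    exact sum_le_sum fun z _ => eM_TF (c (k + 1)) hβ h (mem_Ico.1 hk).2 x z
  dr := by
    refine le_trans (le_of_eq ?_) hE
    simp only [zero_mulVec, dotProduct_zero, sum_const_zero]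
  born := by
    refine le_trans (le_of_eq ?_) h_born
    rw [mul_sum, ← sum_add_distrib]
    refine sum_congr rfl fun k _ => ?_
    rw [mul_sum, ← sum_add_distrib]
    refine sum_congr rfl fun x _ => ?_
    rw [mul_sum, ← sum_add_distrib]
    refine sum_congr rfl fun z _ => ?_
    split_ifs
    · exact eT_TF (c (k + 1)) h k x z
    · ring
  cross := by
    refine le_trans (le_of_eq ?_) h_cross
    rw [mul_sum, ← sum_add_distrib]
    refine sum_congr rfl fun k _ => ?_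
    exact GW_mark h (c (k + 1)) r2 r3 r1 k (pl k)
      (fun n2 n1 m => Ch A k n2 m ∨ Ch b k n1 n2 ∨ Ch c k n1 m) (fun _ n1 _ => n1)
      (fun _ _ m => m)
  cap := h_cap

end

end Vale.Agent.P141.H235.S1
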